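import Vale.Agent.P207.N3.H306.MetI
import Vale.Agent.P207.N3.H618.Conn
import Vale.Agent.P207.N3.Geo.Psi

/-!
# P207, line N3, row R11: the structure `Metr` of the leaves of the model

`metrOf`: from the frames over the manifold (`Over`), the unstable Riccati solution (`MDat`), the
geometry (`GeoIn`) and the connection (`Conn`) of the chart.
-/

open scoped Manifold ContDiff ENNReal Topology Matrix
open Bundle MeasureTheory Set Filter Metric

set_option maxSynthPendingDepth 3
set_option linter.unusedSectionVars false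

noncomputable section

namespace Vale.Agent.P207.N3.H306

open Vale.Agent.P207.N3.H722 (GeoIn HessIn)
open Vale.Agent.P255 (RMetric)
open Vale.Agent.P207.Q Vale.Agent.P207.Q.H130 Vale.Agent.P207.Q.H545 Vale.Agent.P207.Q.H892

variable {M : Type} [TopologicalSpace M] [ChartedSpace (EV 3) M] [IsManifold 𝓘(ℝ, EV 3) ∞ M]
  {g : RMetric (EV 3) M}
  [CompactSpace M] [T2Space M] {Φ : ℝ → Fr g → Fr g}

variable {Γ X B : Type} [Group Γ] [MetricSpace X] [ProperSpace X] [MulAction Γ X]
  [IsIsometricSMul Γ X] [TopologicalSpace B] [CompactSpace B] [T2Space B] [MulAction Γ B]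
  [ContinuousConstSMul Γ B] {L : Leaf Γ X B} {V : Type} [NormedAddCommGroup V] [NormedSpace ℝ V]
  [FiniteDimensional ℝ V] {fr : X → Fr g}

/-- **the metric data of the leaves** -/
def metrOf (hΦ : IsHorFlow g (Pi.single 0 1) Φ) (O : Over Φ L fr) (D : MDat g Φ) (I : GeoIn L V)
    (C : H618.Conn I (H618.ukOf hΦ O D).U) : Metr L :=
  (H618.ukOf hΦ O D).metr (ji I (H618.ukOf hΦ O D) C.jac)

variable (hΦ : IsHorFlow g (Pi.single 0 1) Φ) (O : Over Φ L fr) (D : MDat g Φ) (I : GeoIn L V)
  (C : H618.Conn I (H618.ukOf hΦ O D).U)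

theorem metrOf_U (x : X) : (metrOf hΦ O D I C).U x = H618.cl (D.U (fr x)) := rfl

theorem metrOf_hess : HessIn I (metrOf hΦ O D I C) := C.hessIn _ rfl

end Vale.Agent.P207.N3.H306
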