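import Vale.Agent.P207.N3.Geo.Over
import Vale.Agent.P207.N3.H732.Liv

/-!
# P207, line N3, row R18: the normalised continuous solution `r` of `X r + tr U = h`

* `factor_of_over`: the map `x ↦ (fr x).ut 0` is a factor map onto the geodesic flow.
* `exists_desc_over`: a continuous function on `X` which is invariant under `Γ` and `rot` descends
  to the unit tangent bundle of `M`.
* `logdet`: `log det (U + U^flip)` is the integral of `tr U^flip - tr U`.
* `exists_RDat`: `RDat` from the transfer function `ψ`.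
-/

open scoped Manifold ContDiff ENNReal Topology Matrix
open Bundle MeasureTheory Set Filter

set_option maxSynthPendingDepth 3
set_option linter.unusedSectionVars false

noncomputable section

namespace Vale.Agent.P207.N3.H306

open Vale.Agent.P255 (RMetric)
open Vale.Agent.P207.Q Vale.Agent.P207.Q.H130 Vale.Agent.P207.Q.H892 Vale.Agent.P207.Q.H545
open H908 (mo ext mo_surjective mo_val cs tl ext_apply)
open H732 (CFlow Factor)

/-! ### the stabiliser of `e₀` is `O(2)` -/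

theorem tl_single_zero : tl (EuclideanSpace.single 0 (1 : ℝ)) = 0 := by
  ext i
  fin_cases i <;> simp [tl]

theorem tl_single_succ (j : Fin 2) :
    tl (EuclideanSpace.single j.succ (1 : ℝ)) = EuclideanSpace.single j 1 := by
  ext i
  fin_cases j <;> fin_cases i <;> simp [tl]

theorem mo_ext_zero (a : O2) (j : Fin 3) : (mo (ext a)).1 0 j = if j = 0 then 1 else 0 := by
  rw [mo_val, ext_apply]
  change (EuclideanSpace.single j (1 : ℝ) : E3) 0 = _
  simp [eq_comm]

theorem mo_ext_succ_zero (a : O2) (i : Fin 2) : (mo (ext a)).1 i.succ 0 = 0 := by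
  rw [mo_val, ext_apply, tl_single_zero, map_zero]
  fin_cases i <;> rfl

theorem mo_ext_succ_succ (a : O2) (i j : Fin 2) :
    (mo (ext a)).1 i.succ j.succ = a (EuclideanSpace.single j 1) i := by
  rw [mo_val, ext_apply, tl_single_succ]
  fin_cases i <;> rfl

theorem ext_mem_Stab (a : O2) : mo (ext a) ∈ Stab 3 := by
  rw [mem_Stab]
  ext i
  rw [act_apply, Fin.sum_univ_three]
  have h1 : ∀ i : Fin 3, (mo (ext a)).1 i 0 = if i = 0 then 1 else 0 := by
    intro i
    refine Fin.cases ?_ (fun i => ?_) i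
    · rw [mo_ext_zero]
    · rw [mo_ext_succ_zero]
      simp
  rw [h1]
  simp

theorem exists_ext {A : OG 3} (hA : A ∈ Stab 3) : ∃ a : O2, mo (ext a) = A := by
  obtain ⟨a, ha⟩ := mo_surjective (n := 2)
    ⟨low A, (Matrix.mem_orthogonalGroup_iff' (Fin 2) ℝ).2 (low_orth hA)⟩
  have hval : ∀ i j, a (EuclideanSpace.single j 1) i = A.1 (Fin.succ i) (Fin.succ j) :=
    fun i j => congrFun (congrFun (congrArg Subtype.val ha) i) j
  refine ⟨a, Subtype.ext (Matrix.ext fun i j => ?_)⟩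
  refine Fin.cases ?_ (fun i => ?_) i
  · rw [mo_ext_zero, stab_row hA]
  · refine Fin.cases ?_ (fun j => ?_) j
    · rw [mo_ext_succ_zero, stab_col hA]
      simp
    · rw [mo_ext_succ_succ, hval]

/-! ### `log det (U + U^flip)` -/

section Flip

variable {M : Type} [TopologicalSpace M] [ChartedSpace (EV 3) M] [IsManifold 𝓘(ℝ, EV 3) ∞ M]
  {g : RMetric (EV 3) M}

theorem flipM_apply (i j : Fin 3) : flipM i j = if i = j then (if i = 0 then -1 else 1) else 0 := by
  fin_cases i <;> fin_cases j <;> simp [flipM, Matrix.diagonal]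

/-- the curvature matrix of the flipped frame -/
theorem Km_flip (f : Fr g) : Km g (flipF f) = Km g f := by
  ext i j
  change -Rf g (Fr.rot flipO f) i.succ 0 0 j.succ = -Rf g f i.succ 0 0 j.succ
  rw [Rf_rot]
  have hz : ∀ a : Fin 3, flipO.1 a 0 = if a = 0 then (-1 : ℝ) else 0 := fun a => by
    change flipM a 0 = _
    rw [flipM_apply]
    fin_cases a <;> simp
  have hs : ∀ (a : Fin 3) (k : Fin 2), flipO.1 a k.succ = if a = k.succ then (1 : ℝ) else 0 :=
    fun a k => by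
      change flipM a k.succ = _
      rw [flipM_apply]
      fin_cases a <;> fin_cases k <;> simp
  simp only [hz, hs, ite_mul, one_mul, zero_mul, neg_mul, Finset.sum_ite_eq', Finset.mem_univ,
    if_true, neg_neg]

variable [T2Space M]

theorem flip_flow {Φ : ℝ → Fr g → Fr g} (hΦ : IsHorFlow g (Pi.single 0 1) Φ) (t : ℝ) (f : Fr g) :
    flipF (Φ t f) = Φ (-t) (flipF f) := by
  have h1 := hΦ.rot hΦ.neg flipO flipM_zero (-t) f
  simp only [neg_neg] at h1
  exact h1.symm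

variable {Φ : ℝ → Fr g → Fr g} {lam Lam : ℝ} {U : Fr g → Matrix (Fin 2) (Fin 2) ℝ}

/-- the Riccati equation of `U ∘ flip` -/
theorem ric_flip (hΦ : IsHorFlow g (Pi.single 0 1) Φ) (hU : IsUR Φ lam Lam U) (f : Fr g) (r : ℝ)
    (i j : Fin 2) :
    HasDerivAt (fun s => U (flipF (Φ s f)) i j)
      ((U (flipF (Φ r f)) * U (flipF (Φ r f))) i j - Km g (Φ r f) i j) r := by
  have h1 : (fun s => U (flipF (Φ s f)) i j) = fun s => U (Φ (-s) (flipF f)) i j := by
    funext s
    rw [flip_flow hΦ]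
  rw [h1, flip_flow hΦ]
  have h2 := hU.ric (flipF f) (-r) i j
  have h3 := HasDerivAt.scomp (h := fun s : ℝ => -s) r h2 (hasDerivAt_neg r)
  refine h3.congr_deriv ?_
  rw [← flip_flow hΦ, Km_flip, neg_one_smul, neg_sub]

/-- `U + U ∘ flip` is positive -/
theorem det_pos (hΦ : IsHorFlow g (Pi.single 0 1) Φ) (hU : IsUR Φ lam Lam U) (f : Fr g) :
    0 < (U f + U (flipF f)).det := by
  have hs : (U f + U (flipF f)) 1 0 = (U f + U (flipF f)) 0 1 := by
    have h1 := congrFun (congrFun (hU.symm hΦ f) 0) 1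
    have h2 := congrFun (congrFun (hU.symm hΦ (flipF f)) 0) 1
    simp only [Matrix.transpose_apply] at h1 h2
    rw [Matrix.add_apply, Matrix.add_apply, h1, h2]
  have hp : ∀ x : Fin 2 → ℝ, 2 * lam * (x ⬝ᵥ x) ≤ x ⬝ᵥ ((U f + U (flipF f)) *ᵥ x) := by
    intro x
    have h1 := hU.lo f x
    have h2 := hU.lo (flipF f) x
    rw [Matrix.add_mulVec, dotProduct_add]
    linarith
  set S := U f + U (flipF f) with hS
  have h00 : 0 < S 0 0 := by
    have h1 := hp ![1, 0]
    simp [Matrix.mulVec, dotProduct, Fin.sum_univ_two] at h1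
    linarith [hU.pos]
  have h3 := hp ![-S 0 1, S 0 0]
  rw [Matrix.det_fin_two, hs]
  simp only [Matrix.mulVec, dotProduct, Fin.sum_univ_two, Matrix.cons_val_zero,
    Matrix.cons_val_one, hs] at h3
  have h4 : 0 < 2 * lam * (-S 0 1 * -S 0 1 + S 0 0 * S 0 0) := by
    have h6 : 0 < S 0 0 * S 0 0 := mul_pos h00 h00
    have h7 : 0 ≤ -S 0 1 * -S 0 1 := mul_self_nonneg _
    exact mul_pos (by linarith [hU.pos]) (by linarith)
  have h5 : 0 < S 0 0 * (S 0 0 * S 1 1 - S 0 1 * S 0 1) := by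
    nlinarith
  exact (mul_pos_iff_of_pos_left h00).1 h5

/-- **`(log det (U + U^flip))' = tr U^flip - tr U`** -/
theorem hasDerivAt_logdet (hΦ : IsHorFlow g (Pi.single 0 1) Φ) (hU : IsUR Φ lam Lam U) (f : Fr g)
    (r : ℝ) :
    HasDerivAt (fun s => Real.log ((U (Φ s f) + U (flipF (Φ s f))).det))
      ((U (flipF (Φ r f))).trace - (U (Φ r f)).trace) r := by
  have hd : ∀ i j, HasDerivAt (fun s => (U (Φ s f) + U (flipF (Φ s f))) i j)
      ((U (flipF (Φ r f)) * U (flipF (Φ r f))) i j - (U (Φ r f) * U (Φ r f)) i j) r := by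
    intro i j
    refine ((hU.ric f r i j).add (ric_flip hΦ hU f r i j)).congr_deriv ?_
    ring
  have h1 : HasDerivAt (fun s => (U (Φ s f) + U (flipF (Φ s f))).det)
      (((U (flipF (Φ r f))).trace - (U (Φ r f)).trace) *
        (U (Φ r f) + U (flipF (Φ r f))).det) r := by
    simp only [Matrix.det_fin_two]
    refine (((hd 0 0).mul (hd 1 1)).sub ((hd 0 1).mul (hd 1 0))).congr_deriv ?_
    simp only [Matrix.mul_apply, Matrix.add_apply, Fin.sum_univ_two, Matrix.trace_fin_two]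
    ring
  have h2 := h1.log (det_pos hΦ hU (Φ r f)).ne'
  refine h2.congr_deriv ?_
  rw [mul_div_assoc, div_self (det_pos hΦ hU (Φ r f)).ne', mul_one]

end Flip

/-! ### descent to the unit tangent bundle -/

section Desc

variable {M : Type} [TopologicalSpace M] [ChartedSpace (EV 3) M] [IsManifold 𝓘(ℝ, EV 3) ∞ M]
  [CompactSpace M] [T2Space M] {g : RMetric (EV 3) M}
  {Γ X B : Type} [Group Γ] [MetricSpace X] [ProperSpace X] [MulAction Γ X]
  [IsIsometricSMul Γ X] [TopologicalSpace B] [CompactSpace B] [T2Space B] [MulAction Γ B]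
  [ContinuousConstSMul Γ B] {Φ : ℝ → Fr g → Fr g} {L : Leaf Γ X B} {fr : X → Fr g}

theorem continuous_ut0 : Continuous (fun f : Fr g => f.ut 0) := (isBdl_ut g).cont

theorem ut_over_rot (O : Over Φ L fr) (a : O2) (x : X) :
    (fr (L.rot a x)).ut 0 = (fr x).ut 0 := by
  rw [O.rot]
  have h1 := (isBdl_ut g).inv (⟨(mo (ext a))⁻¹, (Stab 3).inv_mem (ext_mem_Stab a)⟩ : Stab 3) (fr x)
  have h2 : ((⟨(mo (ext a))⁻¹, (Stab 3).inv_mem (ext_mem_Stab a)⟩ : Stab 3) • fr x) =
      Fr.rot (mo (ext a))⁻¹⁻¹ (fr x) := rfl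
  rw [h2, inv_inv] at h1
  exact h1

/-- two frames of `X` over the same unit vector of `M` -/
theorem exists_of_ut_eq (O : Over Φ L fr) {x y : X} (h : (fr x).ut 0 = (fr y).ut 0) :
    ∃ (γ : Γ) (a : O2), y = γ • L.rot a x := by
  obtain ⟨A, hA⟩ := (isBdl_ut g).trans _ _ h
  obtain ⟨a, ha⟩ := exists_ext ((Stab 3).inv_mem A.2)
  have h1 : fr (L.rot a x) = fr y := by
    rw [O.rot, ha]
    exact hA
  obtain ⟨γ, hγ⟩ := O.fib _ _ h1
  exact ⟨γ, a, hγ⟩

/-- descent -/
theorem exists_desc_over (O : Over Φ L fr) {F : X → ℝ} (hF : Continuous F)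
    (hΓ : ∀ (γ : Γ) x, F (γ • x) = F x) (hrot : ∀ a x, F (L.rot a x) = F x) :
    ∃ t : C(UT g, ℝ), ∀ x, t ((fr x).ut 0) = F x := by
  have := t2Space_UT g
  obtain ⟨K, hK, hcov⟩ := L.cocompact
  have : CompactSpace K := isCompact_iff_compactSpace.1 hK
  have hc : Continuous (fun x : K => (fr x.1).ut 0) :=
    continuous_ut0.comp (O.cont.comp continuous_subtype_val)
  have hs : Function.Surjective (fun x : K => (fr x.1).ut 0) := by
    intro v
    obtain ⟨f, hf⟩ := (isBdl_ut g).surj v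
    obtain ⟨x, hx⟩ := O.surj f
    obtain ⟨γ, hγ⟩ := hcov x
    refine ⟨⟨γ • x, hγ⟩, ?_⟩
    change (fr (γ • x)).ut 0 = v
    rw [O.smul, hx]
    exact hf
  have hq : Topology.IsQuotientMap (⟨fun x : K => (fr x.1).ut 0, hc⟩ : C(K, UT g)) :=
    hc.isClosedMap.isQuotientMap hc hs
  have hFF : Function.FactorsThrough (⟨fun x : K => F x.1, hF.comp continuous_subtype_val⟩ : C(K, ℝ))
      (⟨fun x : K => (fr x.1).ut 0, hc⟩ : C(K, UT g)) := by
    intro x y hxy
    obtain ⟨γ, a, h⟩ := exists_of_ut_eq O (x := x.1) (y := y.1) hxy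
    change F x.1 = F y.1
    rw [h, hΓ, hrot]
  refine ⟨hq.lift _ hFF, fun x => ?_⟩
  obtain ⟨γ, hγ⟩ := hcov x
  have h1 := congrArg (fun q : C(K, ℝ) => q ⟨γ • x, hγ⟩) (hq.lift_comp _ hFF)
  have h2 : hq.lift _ hFF ((fr (γ • x)).ut 0) = F (γ • x) := h1
  rwa [O.smul, hΓ] at h2

/-- the factor map -/
theorem factor_of_over (O : Over Φ L fr) {φ : ℝ → UT g → UT g} (hφ : CFlow φ)
    (hut : ∀ t (f : Fr g), (Φ t f).ut 0 = φ t (f.ut 0)) :
    Factor L φ (fun x => (fr x).ut 0) where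
  flow := hφ
  cont := continuous_ut0.comp O.cont
  smul γ x := by rw [O.smul]
  rot a x := ut_over_rot O a x
  φ t x := by rw [O.flow, hut]

variable {h : ℝ}

/-- the cocycle property of `log S` on `X` -/
theorem logS_coc (hΦ : IsHorFlow g (Pi.single 0 1) Φ) (D : MDat g Φ) (O : Over Φ L fr) (t : ℝ)
    (x : X) : Real.log (D.S ((fr (L.φ t x)).ut 0)) - Real.log (D.S ((fr x).ut 0)) =
      ∫ s in (0 : ℝ)..t, (D.t ((fr (L.flip (L.φ s x))).ut 0) - D.t ((fr (L.φ s x)).ut 0)) := by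
  have h1 : ∀ s ∈ uIcc (0 : ℝ) t, HasDerivAt (fun s => Real.log (D.S ((fr (L.φ s x)).ut 0)))
      (D.t ((fr (L.flip (L.φ s x))).ut 0) - D.t ((fr (L.φ s x)).ut 0)) s := by
    intro s _
    simp only [D.S_eq, D.t_eq, O.flow, O.flip]
    exact hasDerivAt_logdet hΦ D.ur (fr x) s
  have h2 : Continuous fun s => D.t ((fr (L.flip (L.φ s x))).ut 0) - D.t ((fr (L.φ s x)).ut 0) := by
    have h3 : Continuous fun s => L.φ s x := L.φ_cont.comp (continuous_id.prodMk continuous_const)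
    exact (D.t.continuous.comp (continuous_ut0.comp (O.cont.comp (L.flip_cont.comp h3)))).sub
      (D.t.continuous.comp (continuous_ut0.comp (O.cont.comp h3)))
  have h4 := intervalIntegral.integral_eq_sub_of_hasDerivAt h1 (h2.intervalIntegrable _ _)
  rw [h4, L.φ_zero]

theorem S_pos (hΦ : IsHorFlow g (Pi.single 0 1) Φ) (D : MDat g Φ) (v : UT g) : 0 < D.S v := by
  obtain ⟨f, rfl⟩ := (isBdl_ut g).surj v
  rw [D.S_eq]
  exact det_pos hΦ D.ur f

/-- **R18, abstract form**: `RDat` from a normalised transfer function on `X`. -/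
theorem exists_RDat_of_r (hΦ : IsHorFlow g (Pi.single 0 1) Φ) (D : MDat g Φ) (O : Over Φ L fr)
    {r : X → ℝ} (hr : Continuous r) (hΓ : ∀ (γ : Γ) x, r (γ • x) = r x)
    (hrot : ∀ a x, r (L.rot a x) = r x)
    (hcoc : ∀ t x, r (L.φ t x) - r x = h * t - ∫ s in (0 : ℝ)..t, D.t ((fr (L.φ s x)).ut 0))
    (hnorm : ∀ x, Real.log (D.S ((fr x).ut 0)) = r x + r (L.flip x)) :
    ∃ R : RDat D h, ∀ x, R.r ((fr x).ut 0) = r x := by
  obtain ⟨t, ht⟩ := exists_desc_over O hr hΓ hrot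
  refine ⟨⟨t, fun f T => ?_, fun f => ?_⟩, ht⟩
  · obtain ⟨x, rfl⟩ := O.surj f
    have h1 := hcoc T x
    simp only [O.flow] at h1
    rw [ht, ← O.flow, ht]
    exact h1
  · obtain ⟨x, rfl⟩ := O.surj f
    rw [ht, ← O.flip, ht, ← hnorm, Real.exp_log (S_pos hΦ D _)]

/-! ### the function on `X` -/

theorem rho_cont {D : MDat g Φ} (R : RDat D h) (O : Over Φ L fr) :
    Continuous fun x => R.r ((fr x).ut 0) :=
  R.r.continuous.comp (continuous_ut0.comp O.cont)

theorem rho_smul {D : MDat g Φ} (R : RDat D h) (O : Over Φ L fr) (γ : Γ) (x : X) :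
    R.r ((fr (γ • x)).ut 0) = R.r ((fr x).ut 0) := by
  rw [O.smul]

theorem rho_rot {D : MDat g Φ} (R : RDat D h) (O : Over Φ L fr) (a : O2) (x : X) :
    R.r ((fr (L.rot a x)).ut 0) = R.r ((fr x).ut 0) := by
  rw [ut_over_rot O]

theorem rho_flow {D : MDat g Φ} (R : RDat D h) (O : Over Φ L fr) (t : ℝ) (x : X) :
    R.r ((fr (L.φ t x)).ut 0) - R.r ((fr x).ut 0) =
      h * t - ∫ s in (0 : ℝ)..t, D.t ((fr (L.φ s x)).ut 0) := by
  have h1 := R.coc (fr x) t
  simp only [← O.flow] at h1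
  exact h1

/-- **R18.** -/
theorem exists_RDat [MeasurableSpace B] [BorelSpace B] {ν₀ : Measure B} [IsFiniteMeasure ν₀]
    {m : Measure (UT g)} [IsProbabilityMeasure m] [m.WeaklyRegular]
    (hΦ : IsHorFlow g (Pi.single 0 1) Φ) (D : MDat g Φ) (O : Over Φ L fr)
    {φ : ℝ → UT g → UT g} (hφ : CFlow φ) (hut : ∀ t (f : Fr g), (Φ t f).ut 0 = φ t (f.ut 0))
    (hm : ∀ t, MeasurePreserving (φ t) m m)
    (hW : H732.Hold fun x => D.t ((fr x).ut 0)) (hW' : H732.Hold fun x => D.t ((fr (L.flip x)).ut 0))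
    (h : ℝ) {ψ : UT g → ℝ} (hψm : Measurable ψ) (hψI : Integrable ψ m)
    (hψ : ∀ T, ∀ᵐ v ∂m, ψ (φ T v) - ψ v = ∫ s in (0 : ℝ)..T, (D.t (φ s v) - h))
    (hAC : H732.HopfAC L φ (fun x => (fr x).ut 0) m ν₀) : Nonempty (RDat D h) := by
  have := t2Space_UT g
  have := compactSpace_UT g
  have hc1 : Continuous fun x => Real.log (D.S ((fr x).ut 0)) :=
    (D.S.continuous.comp (continuous_ut0.comp O.cont)).log fun x => (S_pos hΦ D _).ne'
  obtain ⟨r, hr, hrΓ, hrrot, hrφ, hrn⟩ := H732.exists_r_norm L (factor_of_over O hφ hut) hm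
    D.t.continuous hW hW' h hψm hψI hψ hAC hc1 (fun γ x => by rw [O.smul])
    (fun a x => by rw [ut_over_rot O]) (fun t x => logS_coc hΦ D O t x)
  obtain ⟨R, -⟩ := exists_RDat_of_r hΦ D O hr hrΓ hrrot hrφ hrn
  exact ⟨R⟩

end Desc

end Vale.Agent.P207.N3.H306
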